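import Mathlib
import Vale.Agent.P047.Combine

namespace Vale.Agent.Results.P047.LinearGap

open Finset

/-- Fourier coefficient of `f` at `S`; the cube `{-1,1}^n` is indexed by `Fin n → Bool`, where
`true` stands for `1` and `false` for `-1`. -/
noncomputable def coef {n : ℕ} (f : (Fin n → Bool) → ℝ) (S : Finset (Fin n)) : ℝ :=
  (∑ x, f x * ∏ i ∈ S, (if x i then (1 : ℝ) else -1)) / 2 ^ n

/-- `M(d) ≤ (1 - 1/6000) d` for every `d ≥ 2`: for every Boolean function `f` of degree at most
`d`, the sum of its degree-one Fourier coefficients is at most `(1 - 1/6000) d`. -/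
theorem result : ∀ d : ℕ, 2 ≤ d → ∀ (n : ℕ) (f : (Fin n → Bool) → ℝ),
    (∀ x, f x = 1 ∨ f x = -1) → (∀ S : Finset (Fin n), d < S.card → coef f S = 0) →
    ∑ i, coef f {i} ≤ (1 - 1 / 6000) * d := by
  intro d hd n f hf hdeg
  exact Vale.Agent.P047.main_bound f hf d hd hdeg

end Vale.Agent.Results.P047.LinearGap
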